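import Vale.Agent.P284Z.Defs
import Vale.Agent.P284.H894.MkCoc
import Vale.Agent.P272.KOD.CovEx

/-!
# P284Z, block A: the data `Coc` of a covering `Cov`
-/

open scoped ContDiff Topology ComplexConjugate
open Filter Set Metric

noncomputable section

namespace Vale.Agent.P284Z.A

open Vale.Agent.P272.K Vale.Agent.P284.H894

variable {n : ℕ} {Γ E : Type} [Group Γ] [TopologicalSpace E] [MulAction Γ E] {C : Cov n Γ E}
  {γ γ' : Γ} {a b d : C.I} {z : Cm n}

theorem tgt (hz : z ∈ C.B 4 a) : z ∈ (C.e a).target := by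
  rw [C.tgt a]; exact hz

theorem of_tgt (hz : z ∈ (C.e a).target) : z ∈ C.B 4 a := by
  rw [C.tgt a] at hz; exact hz

theorem pt_mul (γ g : Γ) (a : C.I) (z : Cm n) : C.pt (γ * g) a z = γ • C.pt g a z :=
  mul_smul _ _ _

theorem pt_one (a : C.I) (z : Cm n) : C.pt 1 a z = (C.e a).symm z := one_smul _ _

theorem ov_mem (h : C.Ov γ a b z) : C.tr γ a b z ∈ C.B 4 b := of_tgt ((C.e b).map_source h.2)

theorem ov_symm (h : C.Ov γ a b z) : (C.e b).symm (C.tr γ a b z) = C.pt γ a z :=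
  (C.e b).left_inv h.2

theorem ov_uniq (h : C.Ov γ a b z) (h' : C.Ov γ' a b z) : γ = γ' := by
  have h1 : (γ' * γ⁻¹) • C.pt γ a z = C.pt γ' a z := by
    rw [← pt_mul, inv_mul_cancel_right]
  have h2 := C.disj (γ' * γ⁻¹) b _ h.2 (by rw [h1]; exact h'.2)
  exact (mul_inv_eq_one.1 h2).symm

theorem pt_cont (γ : Γ) (hz : z ∈ C.B 4 a) : ContinuousAt (C.pt γ a) z :=
  (C.cont γ).continuousAt.comp ((C.e a).continuousAt_symm (tgt hz))

theorem ov_ev (h : C.Ov γ a b z) : ∀ᶠ w in 𝓝 z, C.Ov γ a b w := by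
  filter_upwards [isOpen_ball.mem_nhds h.1,
    (pt_cont γ h.1).eventually ((C.e b).open_source.mem_nhds h.2)] with w h1 h2
  exact ⟨h1, h2⟩

theorem ov_of_eq {w : Cm n} (hz : z ∈ C.B 4 a) (hw : w ∈ C.B 4 b)
    (h : C.pt γ a z = C.pt γ' b w) : C.Ov (γ'⁻¹ * γ) a b z ∧ C.tr (γ'⁻¹ * γ) a b z = w := by
  have h1 : C.pt (γ'⁻¹ * γ) a z = (C.e b).symm w := by
    rw [pt_mul, h, ← pt_mul, inv_mul_cancel, pt_one]
  refine ⟨⟨hz, ?_⟩, ?_⟩
  · rw [h1]; exact (C.e b).map_target (tgt hw)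
  · unfold Cov.tr
    rw [h1]; exact (C.e b).right_inv (tgt hw)

theorem ov_self (hz : z ∈ C.B 4 a) : C.Ov 1 a a z ∧ C.tr 1 a a z = z := by
  have := ov_of_eq (γ := 1) (γ' := 1) hz hz rfl
  simpa using this

theorem ov_trans (h : C.Ov γ a b z) (h' : C.Ov γ' b d (C.tr γ a b z)) :
    C.Ov (γ' * γ) a d z ∧ C.tr (γ' * γ) a d z = C.tr γ' b d (C.tr γ a b z) := by
  have h1 : C.pt (γ' * γ) a z = C.pt γ' b (C.tr γ a b z) := by
    rw [pt_mul, ← ov_symm h]; rfl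
  refine ⟨⟨h.1, ?_⟩, ?_⟩
  · rw [h1]; exact h'.2
  · unfold Cov.tr at h1 ⊢
    rw [h1]

theorem ov_inv (h : C.Ov γ a b z) : C.Ov γ⁻¹ b a (C.tr γ a b z) := by
  have h1 : C.pt 1 b (C.tr γ a b z) = C.pt γ a z := by rw [pt_one, ov_symm h]
  have := (ov_of_eq (ov_mem h) h.1 h1).1
  rwa [mul_one] at this

theorem tr_an (h : C.Ov γ a b z) : AnalyticAt ℂ (C.tr γ a b) z := C.hol γ a b z h.1 h.2

variable (C) in
/-- the overlap in the quotient -/
def O (a b : C.I) : Set (Cm n) := {z | ∃ γ, C.Ov γ a b z}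

open Classical in
variable (C) in
/-- the element of the group on the overlap -/
def kp (a b : C.I) (z : Cm n) : Γ := if h : ∃ γ, C.Ov γ a b z then h.choose else 1

variable (C) in
/-- the change of coordinates -/
def T (a b : C.I) (z : Cm n) : Cm n := C.tr (kp C a b z) a b z

theorem kp_ov (h : z ∈ O C a b) : C.Ov (kp C a b z) a b z := by
  have h' : ∃ γ, C.Ov γ a b z := h
  rw [kp, dif_pos h']
  exact h'.choose_spec

theorem kp_eq (h : C.Ov γ a b z) : kp C a b z = γ := ov_uniq (kp_ov ⟨γ, h⟩) h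

theorem T_eq (h : C.Ov γ a b z) : T C a b z = C.tr γ a b z := by rw [T, kp_eq h]

theorem kp_ev (h : z ∈ O C a b) : ∀ᶠ w in 𝓝 z, w ∈ O C a b ∧ kp C a b w = kp C a b z :=
  (ov_ev (kp_ov h)).mono fun _ hw => ⟨⟨_, hw⟩, kp_eq hw⟩

theorem T_ev (h : C.Ov γ a b z) : T C a b =ᶠ[𝓝 z] C.tr γ a b :=
  (ov_ev h).mono fun _ hw => T_eq hw

theorem T_an (h : z ∈ O C a b) : AnalyticAt ℂ (T C a b) z :=
  (tr_an (kp_ov h)).congr (T_ev (kp_ov h)).symm

theorem O_open (a b : C.I) : IsOpen (O C a b) :=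
  isOpen_iff_mem_nhds.2 fun _ h => (kp_ev h).mono fun _ hw => hw.1

theorem O_B (h : z ∈ O C a b) : z ∈ C.B 4 a := (kp_ov h).1

theorem T_mem (h : z ∈ O C a b) : T C a b z ∈ O C b a := ⟨_, ov_inv (kp_ov h)⟩

theorem trans_all (h : z ∈ O C a b) (h' : T C a b z ∈ O C b d) :
    z ∈ O C a d ∧ T C a d z = T C b d (T C a b z) ∧
      kp C a d z = kp C b d (T C a b z) * kp C a b z := by
  obtain ⟨h1, h2⟩ := ov_trans (kp_ov h) (kp_ov h')
  exact ⟨⟨_, h1⟩, (T_eq h1).trans h2, kp_eq h1⟩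

theorem cover' (hz : z ∈ C.B 4 a) : ∃ b, z ∈ O C a b ∧ T C a b z ∈ ball (C.c b) (C.r b) := by
  obtain ⟨γ, b, w, hw, h⟩ := C.cover (C.pt 1 a z)
  have hw' : w ∈ C.B 4 b := ball_subset_ball (by linarith [C.r_pos b]) hw
  obtain ⟨h1, h2⟩ := ov_of_eq (γ' := γ) hz hw' h
  exact ⟨b, ⟨_, h1⟩, by rw [T_eq h1, h2]; exact hw⟩

theorem closed' [T2Space E] (a b : C.I) {K : Set (Cm n)} (hK : IsCompact K) (hKs : K ⊆ C.B 4 b)
    (hz : z ∈ C.B 4 a) (h : ¬ (z ∈ O C a b ∧ T C a b z ∈ K)) :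
    ∀ᶠ w in 𝓝 z, ¬ (w ∈ O C a b ∧ T C a b w ∈ K) := by
  set K' : Set E := (C.e b).symm '' K with hK'
  have hK'c : IsCompact K' :=
    hK.image_of_continuousOn ((C.e b).continuousOn_symm.mono fun w hw => tgt (hKs hw))
  obtain ⟨δ, hδ, hδs⟩ : ∃ δ > 0, closedBall z δ ⊆ C.B 4 a :=
    nhds_basis_closedBall.mem_iff.1 (isOpen_ball.mem_nhds hz)
  set N : Set E := (C.e a).symm '' closedBall z δ with hN
  have hNc : IsCompact N := (isCompact_closedBall z δ).image_of_continuousOn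
    ((C.e a).continuousOn_symm.mono fun w hw => tgt (hδs hw))
  have hfin := C.proper (N ∪ K') (hNc.union hK'c)
  have h1 : ∀ g : Γ, ∀ᶠ w in 𝓝 z, C.pt g a w ∉ K' := by
    intro g
    refine (pt_cont g hz).eventually (hK'c.isClosed.isOpen_compl.mem_nhds ?_)
    rintro ⟨w, hw, hw'⟩
    obtain ⟨h2, h3⟩ := ov_of_eq (γ := g) (γ' := 1) hz (hKs hw) (by rw [pt_one, hw'])
    exact h ⟨⟨_, h2⟩, by rw [T_eq h2, h3]; exact hw⟩
  filter_upwards [(eventually_all_finite hfin).2 fun g _ => h1 g, closedBall_mem_nhds z hδ]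
    with w h2 h3 h4
  have h5 : C.pt (kp C a b w) a w ∈ K' := ⟨_, h4.2, ov_symm (kp_ov h4.1)⟩
  exact h2 _ ⟨(C.e a).symm w, Or.inl ⟨w, h3, rfl⟩, Or.inr h5⟩ h5

variable (C) in
/-- the compact part of the overlap -/
def cO (a b : C.I) : Set (Cm n) :=
  closedBall (C.c a) (3 * C.r a) ∩ {z | z ∈ O C a b ∧ T C a b z ∈ closedBall (C.c b) (3 * C.r b)}

theorem cb_sub (a : C.I) : closedBall (C.c a) (3 * C.r a) ⊆ C.B 4 a :=
  closedBall_subset_ball (by linarith [C.r_pos a])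

theorem cO_compact [T2Space E] (a b : C.I) : IsCompact (cO C a b) := by
  refine (isCompact_closedBall _ _).of_isClosed_subset ?_ inter_subset_left
  rw [← isOpen_compl_iff, isOpen_iff_mem_nhds]
  intro z hz
  by_cases h : z ∈ closedBall (C.c a) (3 * C.r a)
  · filter_upwards [closed' a b (isCompact_closedBall _ _) (cb_sub b) (cb_sub a h)
      fun h' => hz ⟨h, h'⟩] with w hw hw' using hw hw'.2
  · filter_upwards [isClosed_closedBall.isOpen_compl.mem_nhds h] with w hw hw' using hw hw'.1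

theorem conn' [ConnectedSpace E] (Q : Γ → C.I → Prop)
    (hQ : ∀ γ a b z, z ∈ O C a b → z ∈ ball (C.c a) (3 * C.r a) →
      T C a b z ∈ ball (C.c b) (3 * C.r b) → Q γ a → Q (γ * (kp C a b z)⁻¹) b)
    (γ : Γ) (a : C.I) (γ' : Γ) (b : C.I) (h : Q γ a) : Q γ' b := by
  have hs : ∀ a : C.I, ball (C.c a) (3 * C.r a) ⊆ C.B 4 a := fun a =>
    ball_subset_closedBall.trans (cb_sub a)
  let U : (Γ → C.I → Prop) → Set E := fun R =>
    {y | ∃ g d, R g d ∧ ∃ w ∈ ball (C.c d) (3 * C.r d), y = C.pt g d w}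
  have hU : ∀ R, IsOpen (U R) := by
    intro R
    have e : U R = ⋃ g, ⋃ d, ⋃ (_ : R g d),
        (fun y => g⁻¹ • y) ⁻¹' ((C.e d).symm '' ball (C.c d) (3 * C.r d)) := by
      ext y
      simp only [mem_iUnion, mem_preimage, mem_image]
      constructor
      · rintro ⟨g, d, h1, w, h2, rfl⟩
        exact ⟨g, d, h1, w, h2, (inv_smul_smul g _).symm⟩
      · rintro ⟨g, d, h1, w, h2, h3⟩
        exact ⟨g, d, h1, w, h2, by unfold Cov.pt; rw [h3, smul_inv_smul]⟩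
    rw [e]
    exact isOpen_iUnion fun g => isOpen_iUnion fun d => isOpen_iUnion fun _ =>
      ((C.e d).isOpen_image_symm_of_subset_target isOpen_ball fun w hw => tgt (hs d hw)).preimage
        (C.cont g⁻¹)
  have hc : ∀ d : C.I, C.c d ∈ ball (C.c d) (3 * C.r d) := fun d =>
    mem_ball_self (by linarith [C.r_pos d])
  by_contra hb
  have hcov : (univ : Set E) ⊆ U Q ∪ U fun g d => ¬ Q g d := by
    intro y _
    obtain ⟨g, d, w, hw, hy⟩ := C.cover y
    have hw' : w ∈ ball (C.c d) (3 * C.r d) := ball_subset_ball (by linarith [C.r_pos d]) hw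
    by_cases h1 : Q g d
    · exact Or.inl ⟨g, d, h1, w, hw', hy⟩
    · exact Or.inr ⟨g, d, h1, w, hw', hy⟩
  obtain ⟨y, -, ⟨g, d, h1, w, hw, hy⟩, ⟨g', d', h1', w', hw', hy'⟩⟩ :=
    isPreconnected_univ _ _ (hU Q) (hU fun g d => ¬ Q g d) hcov
      ⟨_, mem_univ _, γ, a, h, _, hc a, rfl⟩ ⟨_, mem_univ _, γ', b, hb, _, hc b, rfl⟩
  obtain ⟨h2, h3⟩ := ov_of_eq (hs d hw) (hs d' hw') (hy.symm.trans hy')
  have h4 := hQ g d d' w ⟨_, h2⟩ hw (by rw [T_eq h2, h3]; exact hw') h1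
  rw [kp_eq h2] at h4
  apply h1'
  simpa using h4

/-! ### the transition functions -/

section
variable (P : Pol C)

theorem s_freq (hz : z ∈ C.B 4 a) : ∃ᶠ w in 𝓝 z, P.s a w ≠ 0 := by
  intro h
  obtain ⟨w, hw, hw0⟩ := P.s_ne a
  refine hw0 ((P.s_an a).eqOn_zero_of_preconnected_of_eventuallyEq_zero
    (convex_ball _ _).isPreconnected hz ?_ hw)
  filter_upwards [h] with y hy
  simpa using hy

theorem ext_of_ne (hz : z ∈ C.B 4 a) {f g : Cm n → ℂ} (hf : ContinuousAt f z)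
    (hg : ContinuousAt g z) (h : ∀ᶠ w in 𝓝 z, P.s a w ≠ 0 → f w = g w) : f z = g z :=
  tendsto_nhds_unique_of_frequently_eq hf hg (((s_freq P hz).and_eventually h).mono
    fun _ hw => hw.2 hw.1)

open Classical in
/-- the transition functions -/
def G (a b : C.I) (z : Cm n) : ℂ :=
  if h : z ∈ O C a b then (P.s_ch _ a b z (kp_ov h)).choose z else 1

theorem G_loc (h : z ∈ O C a b) : ∃ g : Cm n → ℂ, AnalyticAt ℂ g z ∧ g z ≠ 0 ∧ G P a b z = g z ∧
    ∀ᶠ w in 𝓝 z, P.s a w = g w * P.s b (T C a b w) ∧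
      C.ρ a w = C.ρ b (T C a b w) + Real.log (‖g w‖ ^ 2) := by
  obtain ⟨h1, h2, h3⟩ := (P.s_ch _ a b z (kp_ov h)).choose_spec
  refine ⟨_, h1, h2, by rw [G, dif_pos h], ?_⟩
  filter_upwards [h3, T_ev (kp_ov h)] with w h4 h5
  rw [h5]
  exact h4

theorem G_ne (h : z ∈ O C a b) : G P a b z ≠ 0 := by
  obtain ⟨g, -, h2, h3, -⟩ := G_loc P h
  rwa [h3]

theorem s_eq (h : z ∈ O C a b) : P.s a z = G P a b z * P.s b (T C a b z) := by
  obtain ⟨g, -, -, h3, h4⟩ := G_loc P h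
  rw [h3]
  exact h4.self_of_nhds.1

theorem rho_eq (h : z ∈ O C a b) :
    C.ρ a z = C.ρ b (T C a b z) + Real.log (‖G P a b z‖ ^ 2) := by
  obtain ⟨g, -, -, h3, h4⟩ := G_loc P h
  rw [h3]
  exact h4.self_of_nhds.2

theorem G_an (h : z ∈ O C a b) : AnalyticAt ℂ (G P a b) z := by
  obtain ⟨g, h1, -, -, h4⟩ := G_loc P h
  refine h1.congr ?_
  filter_upwards [h1.eventually_analyticAt, eventually_eventually_nhds.2 h4, kp_ev h]
    with w h5 h6 h7
  obtain ⟨g', h1', -, h3', h4'⟩ := G_loc P h7.1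
  rw [h3']
  refine ext_of_ne P (O_B h7.1) h5.continuousAt h1'.continuousAt ?_
  filter_upwards [h6, h4'] with y h8 h9 h10
  have h11 : P.s b (T C a b y) ≠ 0 := fun h0 => h10 (by rw [h8.1, h0, mul_zero])
  exact mul_right_cancel₀ h11 (h8.1.symm.trans h9.1)

theorem G_trans (h : z ∈ O C a b) (h' : T C a b z ∈ O C b d) :
    G P a d z = G P a b z * G P b d (T C a b z) := by
  have h1 := (trans_all h h').1
  have hT := (T_an h).continuousAt
  refine ext_of_ne P (O_B h) (f := G P a d) (g := fun w => G P a b w * G P b d (T C a b w))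
    (G_an P h1).continuousAt ((G_an P h).continuousAt.mul
      (ContinuousAt.comp (G_an P h').continuousAt hT)) ?_
  filter_upwards [kp_ev h, hT.eventually ((O_open b d).mem_nhds h')] with w h2 h3 h4
  obtain ⟨h5, h6, -⟩ := trans_all h2.1 h3
  have e1 := s_eq P h5
  have e2 := s_eq P h2.1
  rw [s_eq P h3, ← h6] at e2
  have h7 : P.s d (T C a d w) ≠ 0 := fun h0 => h4 (by rw [e1, h0, mul_zero])
  refine mul_right_cancel₀ h7 ?_
  rw [← e1, e2, mul_assoc]

theorem exists_M [T2Space E] : ∃ M : ℝ, 1 ≤ M ∧ (∀ a b, ∀ z ∈ cO C a b, ‖G P a b z‖ ≤ M) ∧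
    ∀ a b, ∀ z ∈ cO C a b, ‖fderiv ℂ (T C a b) z‖ ≤ M := by
  have h1 : ∀ a b, ∃ M : ℝ, ∀ z ∈ cO C a b, ‖G P a b z‖ ≤ M := fun a b =>
    (cO_compact a b).exists_bound_of_continuousOn fun z hz =>
      (G_an P hz.2.1).continuousAt.continuousWithinAt
  have h2 : ∀ a b, ∃ M : ℝ, ∀ z ∈ cO C a b, ‖fderiv ℂ (T C a b) z‖ ≤ M := fun a b =>
    (cO_compact a b).exists_bound_of_continuousOn fun z hz =>
      (T_an hz.2.1).fderiv.continuousAt.continuousWithinAt
  choose M₁ hM₁ using h1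
  choose M₂ hM₂ using h2
  have hs : ∀ (M : C.I → C.I → ℝ) a b, M a b ≤ ∑ a, ∑ b, |M a b| := fun M a b =>
    (le_abs_self _).trans ((Finset.single_le_sum (f := fun b => |M a b|)
      (fun _ _ => abs_nonneg _) (Finset.mem_univ b)).trans
      (Finset.single_le_sum (f := fun a => ∑ b, |M a b|)
        (fun _ _ => Finset.sum_nonneg fun _ _ => abs_nonneg _) (Finset.mem_univ a)))
  have hn : ∀ (M : C.I → C.I → ℝ), 0 ≤ ∑ a, ∑ b, |M a b| := fun M => by positivity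
  refine ⟨1 + (∑ a, ∑ b, |M₁ a b|) + ∑ a, ∑ b, |M₂ a b|, ?_, fun a b z hz => ?_,
    fun a b z hz => ?_⟩
  · linarith [hn M₁, hn M₂]
  · linarith [hM₁ a b z hz, hs M₁ a b, hn M₂]
  · linarith [hM₂ a b z hz, hs M₂ a b, hn M₁]

end

variable (C) in
theorem exists_N [T2Space E] : ∃ N : Finset Γ, ∀ a b, ∀ z ∈ cO C a b, (kp C a b z)⁻¹ ∈ N := by
  have h : (⋃ a, ⋃ b, (fun z => (kp C a b z)⁻¹) '' cO C a b).Finite :=
    finite_iUnion fun a => finite_iUnion fun b =>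
      Pcs.finite_values (cO_compact a b) fun z hz =>
        (kp_ev hz.2.1).mono fun w hw => by rw [hw.2]
  refine ⟨h.toFinset, fun a b z hz => ?_⟩
  rw [Finite.mem_toFinset]
  exact mem_iUnion₂.2 ⟨a, b, ⟨z, hz, rfl⟩⟩

theorem mem_cO (hz : z ∈ O C a b) (h1 : z ∈ ball (C.c a) (3 * C.r a))
    (h2 : T C a b z ∈ ball (C.c b) (3 * C.r b)) : z ∈ cO C a b :=
  ⟨ball_subset_closedBall h1, hz, ball_subset_closedBall h2⟩

/-- the data `Coc` of the covering -/
def toCoc [T2Space E] [ConnectedSpace E] (P : Pol C) : Coc n Γ where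
  I := C.I
  fin := C.fin
  ne := by
    obtain ⟨-, a, -⟩ := C.cover (Classical.arbitrary E)
    exact ⟨a⟩
  c := C.c
  r := C.r
  r_pos := C.r_pos
  O := O C
  T := T C
  g := G P
  κ a b z := (kp C a b z)⁻¹
  O_open := O_open
  O_sub _ _ _ hz := O_B hz
  O_self a := Subset.antisymm (fun _ hz => O_B hz) fun _ hz => ⟨1, (ov_self hz).1⟩
  T_self a z hz := by rw [T_eq (ov_self (O_B hz)).1, (ov_self (O_B hz)).2]
  g_self a z hz := by
    have h1 : T C a a z = z := by rw [T_eq (ov_self (O_B hz)).1, (ov_self (O_B hz)).2]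
    have h2 := G_trans P hz (d := a) (by rw [h1]; exact hz)
    rw [h1] at h2
    exact (mul_left_cancel₀ (G_ne P hz) (by rw [mul_one]; exact h2)).symm
  κ_self a z hz := by rw [kp_eq (ov_self (O_B hz)).1, inv_one]
  T_mem _ _ _ hz := T_mem hz
  trans_mem _ _ _ _ hz h := (trans_all hz h).1
  trans_T _ _ _ _ hz h := (trans_all hz h).2.1
  trans_g _ _ _ _ hz h := G_trans P hz h
  trans_κ a b d z hz h := by rw [(trans_all hz h).2.2, mul_inv_rev]
  T_holo _ _ _ hz := (T_an hz).differentiableAt.differentiableWithinAt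
  g_holo _ _ _ hz := (G_an P hz).differentiableAt.differentiableWithinAt
  g_ne _ _ _ hz := G_ne P hz
  κ_loc a b z hz := (kp_ev hz).mono fun w hw => by rw [hw.2]
  cover _ _ hz := cover' hz
  closed a b _ hQ hQs _ hz h := closed' a b hQ hQs hz h
  N := (exists_N C).choose
  κ_mem a b z hz h1 h2 := (exists_N C).choose_spec a b z (mem_cO hz h1 h2)
  M := (exists_M P).choose
  M_one := (exists_M P).choose_spec.1
  g_le a b z hz h1 h2 := (exists_M P).choose_spec.2.1 a b z (mem_cO hz h1 h2)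
  T_le a b z hz h1 h2 := (exists_M P).choose_spec.2.2 a b z (mem_cO hz h1 h2)
  conn := conn'

theorem exists_wgt [T2Space E] [ConnectedSpace E] (P : Pol C) : Nonempty (Wgt (toCoc P)) := by
  have h1 : ∀ a : C.I, ∃ lam : ℝ, 0 < lam ∧ ∀ z ∈ closedBall (C.c a) (3 * C.r a), ∀ β : Cm n,
      lam * ∑ j, ‖β j‖ ^ 2 ≤ (∑ j, ∑ k, cHess (C.ρ a) z j k * β j * conj (β k)).re :=
    fun a => Vale.Agent.P272.KOD.exists_lam (isCompact_closedBall _ _)
      (fun z hz => C.ρ_sm a z (cb_sub a hz)) fun z hz => C.ρ_pos a z (cb_sub a hz)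
  choose lam hlam hlam' using h1
  have : Nonempty C.I := (toCoc P).ne
  obtain ⟨a0, ha0⟩ := Finite.exists_min lam
  exact ⟨{
    φ := C.ρ
    smooth := C.ρ_sm
    change := fun a b z hz => rho_eq P hz
    lam := lam a0
    lam_pos := hlam a0
    pos := fun a z hz β => (mul_le_mul_of_nonneg_right (ha0 a)
      (Finset.sum_nonneg fun j _ => by positivity)).trans (hlam' a z hz β) }⟩

end Vale.Agent.P284Z.A
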