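import Vale.Agent.P284.H894.Spec
import Vale.Agent.P281.MF.Hol

/-!
# P284Z, block A: partition of unity for the data `Coc`, and extension of sections to the big balls
-/

open scoped ContDiff Topology
open Filter Set Metric

noncomputable section

namespace Vale.Agent.P284Z.A

open Vale.Agent.P272.K Vale.Agent.P284.H894

variable {n : ℕ} {Γ : Type} [Group Γ] (C : Coc n Γ)

theorem cT_an {a b : C.I} {z : Cm n} (h : z ∈ C.O a b) : AnalyticAt ℂ (C.T a b) z :=
  Vale.Agent.P281.MF.analyticAt_of_differentiableOn (C.O_open a b) (C.T_holo a b) h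

theorem cT_T {a b : C.I} {z : Cm n} (h : z ∈ C.O a b) : C.T b a (C.T a b z) = z := by
  have h1 := C.T_mem a b z h
  rw [← C.trans_T a b a z h h1]
  exact C.T_self a z (C.trans_mem a b a z h h1)

theorem cO_of {a b d : C.I} {z : Cm n} (h : z ∈ C.O a d) (h' : z ∈ C.O a b) :
    C.T a d z ∈ C.O d b :=
  C.trans_mem d a b _ (C.T_mem a d z h) (by rw [cT_T C h]; exact h')

/-- bump functions -/
def bmp (i : C.I) : ContDiffBump (C.c i) where
  rIn := C.r i
  rOut := 2 * C.r i
  rIn_pos := C.r_pos i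
  rIn_lt_rOut := by have := C.r_pos i; linarith

/-- the bump function number `b` in the chart `a` -/
def bet (b a : C.I) : Cm n → ℝ := (C.O a b).indicator fun z => bmp C b (C.T a b z)

theorem bet_nonneg (b a : C.I) (z : Cm n) : 0 ≤ bet C b a z :=
  indicator_nonneg (fun _ _ => (bmp C b).nonneg) z

theorem bet_ne {b a : C.I} {z : Cm n} (h : bet C b a z ≠ 0) :
    z ∈ C.O a b ∧ C.T a b z ∈ closedBall (C.c b) (2 * C.r b) := by
  have hz : z ∈ C.O a b := by
    by_contra hz
    exact h (indicator_of_notMem hz _)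
  refine ⟨hz, ?_⟩
  by_contra h2
  apply h
  rw [bet, indicator_of_mem hz]
  apply (bmp C b).zero_of_le_dist
  simp only [mem_closedBall, not_le] at h2
  exact h2.le

theorem bet_smooth (b a : C.I) {z : Cm n} (hz : z ∈ C.Ω a) : ContDiffAt ℝ ∞ (bet C b a) z := by
  by_cases h : z ∈ C.O a b
  · have h1 : ContDiffAt ℝ ∞ (C.T a b) z :=
      ((cT_an C h).contDiffAt (n := ∞)).restrict_scalars ℝ
    refine ((bmp C b).contDiffAt.comp z h1).congr_of_eventuallyEq ?_
    filter_upwards [(C.O_open a b).mem_nhds h] with w hw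
    exact indicator_of_mem hw _
  · refine (contDiffAt_const (c := (0 : ℝ))).congr_of_eventuallyEq ?_
    filter_upwards [C.closed a b (closedBall (C.c b) (2 * C.r b)) (isCompact_closedBall _ _)
      (closedBall_subset_ball (by linarith [C.r_pos b])) z hz fun h' => h h'.1] with w hw
    by_contra h0
    exact hw (bet_ne C h0)

theorem bet_compat (b a d : C.I) {z : Cm n} (hz : z ∈ C.O a d) :
    bet C b a z = bet C b d (C.T a d z) := by
  by_cases h : z ∈ C.O a b
  · have h1 := cO_of C hz h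
    rw [bet, bet, indicator_of_mem h, indicator_of_mem h1, C.trans_T a d b z hz h1]
  · have h1 : C.T a d z ∉ C.O d b := fun h' => h (C.trans_mem a d b z hz h')
    rw [bet, bet, indicator_of_notMem h, indicator_of_notMem h1]

theorem bet_sum_pos (a : C.I) {z : Cm n} (hz : z ∈ C.Ω a) : 0 < ∑ b, bet C b a z := by
  obtain ⟨i, hx, hi⟩ := C.cover a z hz
  have h1 : bet C i a z = 1 := by
    rw [bet, indicator_of_mem hx]
    exact (bmp C i).one_of_mem_closedBall (ball_subset_closedBall hi)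
  have h2 : bet C i a z ≤ ∑ j, bet C j a z :=
    Finset.single_le_sum (f := fun j => bet C j a z) (fun j _ => bet_nonneg C j a z)
      (Finset.mem_univ i)
  linarith

/-- the partition of unity -/
def toPU : PU C where
  χ b a z := bet C b a z / ∑ j, bet C j a z
  smooth b a _ hz := (bet_smooth C b a hz).div (ContDiffAt.sum fun j _ => bet_smooth C j a hz)
    (bet_sum_pos C a hz).ne'
  nonneg b a z := div_nonneg (bet_nonneg C b a z) (Finset.sum_nonneg fun j _ => bet_nonneg C j a z)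
  sum_one a z hz := by
    rw [← Finset.sum_div]
    exact div_self (bet_sum_pos C a hz).ne'
  K b := closedBall (C.c b) (2 * C.r b)
  compactK _ := isCompact_closedBall _ _
  K_sub b := closedBall_subset_ball (by have := C.r_pos b; show _ < 3 * C.r b; linarith)
  supp b a z _ h := bet_ne C fun h0 => h (by rw [h0, zero_div])
  compat b a d z hz := by
    rw [bet_compat C b a d hz]
    congr 1
    exact Finset.sum_congr rfl fun j _ => bet_compat C j a d hz

/-- A holomorphic section over the big balls, locally bounded by a summable function of the sheet. -/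
structure GS (m : ℕ) where
  F : Γ → C.I → Cm n → ℂ
  change : ∀ γ a b, ∀ z ∈ C.O a b, F γ a z = C.g a b z ^ m * F (γ * C.κ a b z) b (C.T a b z)
  loc : ∀ a, ∀ z ∈ C.Ω a, ∃ u : Γ → ℝ, Summable u ∧ ∀ᶠ w in 𝓝 z, ∀ γ,
    DifferentiableAt ℂ (F γ a) w ∧ ‖F γ a w‖ ≤ u γ

variable {C}

open Classical in
/-- the extension of a section to the big balls -/
def extF {m : ℕ} (s : HS C m) (γ : Γ) (a : C.I) (z : Cm n) : ℂ :=
  if h : z ∈ C.Ω a then C.g a (C.cover a z h).choose z ^ m *
    s.F (γ * C.κ a (C.cover a z h).choose z) (C.cover a z h).choose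
      (C.T a (C.cover a z h).choose z) else 0

theorem W_V (b : C.I) : ball (C.c b) (C.r b) ⊆ C.V b :=
  ball_subset_ball (by linarith [C.r_pos b])

theorem extF_eq {m : ℕ} (s : HS C m) (γ : Γ) {a b : C.I} {z : Cm n} (h : z ∈ C.O a b)
    (hV : C.T a b z ∈ C.V b) :
    extF s γ a z = C.g a b z ^ m * s.F (γ * C.κ a b z) b (C.T a b z) := by
  have hz : z ∈ C.Ω a := C.O_sub a b h
  rw [extF, dif_pos hz]
  obtain ⟨h1, h2⟩ := (C.cover a z hz).choose_spec
  set d := (C.cover a z hz).choose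
  have h3 := cO_of C h h1
  have h4 := C.trans_T a b d z h h3
  rw [s.change (γ * C.κ a b z) b d _ h3 hV (by rw [← h4]; exact W_V d h2), ← h4,
    C.trans_g a b d z h h3, C.trans_κ a b d z h h3, mul_pow, mul_assoc, mul_assoc]

theorem exists_GS {m : ℕ} (s : HS C m) {ρ : Γ → ℝ} (hs : s.Small ρ) :
    ∃ t : GS C m, ∀ γ a, ∀ z ∈ C.V a, t.F γ a z = s.F γ a z := by
  refine ⟨⟨extF s, fun γ a b z hz => ?_, fun a z hz => ?_⟩, fun γ a z hz => ?_⟩
  · obtain ⟨d, h1, h2⟩ := C.cover b _ (C.O_sub b a (C.T_mem a b z hz))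
    have h3 := C.trans_mem a b d z hz h1
    have h4 := C.trans_T a b d z hz h1
    rw [extF_eq s γ h3 (by rw [h4]; exact W_V d h2), extF_eq s _ h1 (W_V d h2), h4,
      C.trans_g a b d z hz h1, C.trans_κ a b d z hz h1, mul_pow, mul_assoc, mul_assoc]
  · obtain ⟨b, h1, h2⟩ := C.cover a z hz
    have hO := (C.O_open a b).mem_nhds h1
    have hT := (cT_an C h1).continuousAt
    have hg : ContinuousAt (C.g a b) z := ((C.g_holo a b).differentiableAt hO).continuousAt
    refine ⟨fun γ => (‖C.g a b z‖ + 1) ^ m * ρ (γ * C.κ a b z),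
      ((Equiv.mulRight (C.κ a b z)).summable_iff.2 hs.1).mul_left _, ?_⟩
    have hev : ∀ᶠ w in 𝓝 z, w ∈ C.O a b ∧ C.T a b w ∈ C.V b ∧ C.κ a b w = C.κ a b z := by
      filter_upwards [hO, hT.eventually (isOpen_ball.mem_nhds (W_V b h2)), C.κ_loc a b z h1]
        with w e1 e2 e3 using ⟨e1, e2, e3⟩
    filter_upwards [eventually_eventually_nhds.2 hev,
      hg.norm.eventually (gt_mem_nhds (lt_add_one ‖C.g a b z‖))] with w e1 e2 γ
    obtain ⟨e3, e4, e5⟩ := e1.self_of_nhds
    constructor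
    · have e6 : DifferentiableAt ℂ (fun y => C.g a b y ^ m * s.F (γ * C.κ a b z) b (C.T a b y)) w :=
        (((C.g_holo a b).differentiableAt ((C.O_open a b).mem_nhds e3)).pow m).mul
          (((s.holo _ b).differentiableAt (isOpen_ball.mem_nhds e4)).comp w
            (cT_an C e3).differentiableAt)
      refine e6.congr_of_eventuallyEq ?_
      filter_upwards [e1] with y hy
      rw [extF_eq s γ hy.1 hy.2.1, hy.2.2]
    · rw [extF_eq s γ e3 e4, e5, norm_mul, norm_pow]
      exact mul_le_mul (pow_le_pow_left₀ (norm_nonneg _) e2.le m) (hs.2 _ b _ e4) (norm_nonneg _)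
        (by positivity)
  · have hz' : z ∈ C.O a a := by
      rw [C.O_self]
      exact ball_subset_ball (by linarith [C.r_pos a]) hz
    have h1 := C.T_self a z hz'
    show extF s γ a z = _
    rw [extF_eq s γ hz' (by rw [h1]; exact hz), h1, C.g_self a z hz', C.κ_self a z hz', one_pow,
      one_mul, mul_one]

/-- powers -/
def GS.pow {m : ℕ} (t : GS C m) {k M : ℕ} (hk : 1 ≤ k) (hM : m * k = M) : GS C M where
  F γ a z := t.F γ a z ^ k
  change γ a b z hz := by rw [t.change γ a b z hz, mul_pow, ← pow_mul, hM]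
  loc a z hz := by
    obtain ⟨u, hu, h⟩ := t.loc a z hz
    have h0 : ∀ γ, 0 ≤ u γ := fun γ => (norm_nonneg _).trans (h.self_of_nhds γ).2
    have h1 : ∀ γ, u γ ≤ ∑' γ, u γ := fun γ => hu.le_tsum γ fun γ' _ => h0 γ'
    refine ⟨fun γ => (∑' γ, u γ) ^ (k - 1) * u γ, hu.mul_left _, ?_⟩
    filter_upwards [h] with w hw γ
    refine ⟨(hw γ).1.pow k, ?_⟩
    obtain ⟨j, rfl⟩ : ∃ j, k = j + 1 := ⟨k - 1, by omega⟩
    rw [norm_pow, pow_succ, Nat.add_sub_cancel]
    exact mul_le_mul (pow_le_pow_left₀ (norm_nonneg _) ((hw γ).2.trans (h1 γ)) j) (hw γ).2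
      (norm_nonneg _) (pow_nonneg ((h0 γ).trans (h1 γ)) j)

/-- finitely many sections without common zeros -/
theorem exists_family
    (h : ∀ a, ∀ z ∈ C.V a, ∃ m : ℕ, 1 ≤ m ∧ ∃ (s : HS C m) (ρ : Γ → ℝ), s.Small ρ ∧ s.F 1 a z ≠ 0) :
    ∃ (Λ : Type) (_ : Fintype Λ) (M : ℕ) (t : Λ → GS C M),
      ∀ a, ∀ z ∈ C.Ω a, ∃ l γ, (t l).F γ a z ≠ 0 := by
  classical
  have hcV : ∀ a, closedBall (C.c a) (C.r a) ⊆ C.V a := fun a =>
    closedBall_subset_ball (by linarith [C.r_pos a])
  have h1 : ∀ a (z : closedBall (C.c a) (C.r a)), ∃ m : ℕ, 1 ≤ m ∧ ∃ t : GS C m,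
      ∀ᶠ w in 𝓝 (z : Cm n), t.F 1 a w ≠ 0 := by
    intro a z
    obtain ⟨m, hm, s, ρ, hs, h0⟩ := h a z (hcV a z.2)
    obtain ⟨t, ht⟩ := exists_GS s hs
    refine ⟨m, hm, t, ?_⟩
    have h2 : ContinuousAt (s.F 1 a) z :=
      ((s.holo 1 a).differentiableAt (isOpen_ball.mem_nhds (hcV a z.2))).continuousAt
    filter_upwards [h2.eventually_ne h0, isOpen_ball.mem_nhds (hcV a z.2)] with w h3 h4
    rwa [ht 1 a w h4]
  choose m hm t ht using h1
  have h2 : ∀ a, ∃ S : Finset (closedBall (C.c a) (C.r a)),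
      closedBall (C.c a) (C.r a) ⊆ ⋃ z ∈ S, {w | (t a z).F 1 a w ≠ 0} := fun a =>
    (isCompact_closedBall _ _).elim_nhds_subcover' (fun z hz => {w | (t a ⟨z, hz⟩).F 1 a w ≠ 0})
      fun z hz => ht a ⟨z, hz⟩
  choose S hS using h2
  let Λ : Type := Σ a : C.I, S a
  let μ : Λ → ℕ := fun l => m l.1 l.2.1
  have hμ : ∀ l : Λ, μ l * ∏ l' ∈ Finset.univ.erase l, μ l' = ∏ l', μ l' := fun l =>
    Finset.mul_prod_erase _ _ (Finset.mem_univ l)
  have hk : ∀ l : Λ, 1 ≤ ∏ l' ∈ Finset.univ.erase l, μ l' := fun l =>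
    Finset.one_le_prod' fun l' _ => hm _ _
  refine ⟨Λ, inferInstance, ∏ l', μ l', fun l => (t l.1 l.2.1).pow (hk l) (hμ l), fun a z hz => ?_⟩
  obtain ⟨b, h3, h4⟩ := C.cover a z hz
  obtain ⟨y, hy, h5⟩ := mem_iUnion₂.1 (hS b (ball_subset_closedBall h4))
  refine ⟨⟨b, y, hy⟩, (C.κ a b z)⁻¹, ?_⟩
  show (t b y).F _ a z ^ _ ≠ 0
  refine pow_ne_zero _ ?_
  rw [(t b y).change _ a b z h3, inv_mul_cancel]
  exact mul_ne_zero (pow_ne_zero _ (C.g_ne a b z h3)) h5

end Vale.Agent.P284Z.A
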