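import Vale.Agent.P284.H894.G.G0bFin

/-! # P284Z, block A: a summable section which does not vanish at a given point (the proof of `G0b`). -/

open scoped Manifold ContDiff Topology ComplexConjugate ComplexOrder ENNReal
open Filter Set Metric MeasureTheory

noncomputable section

namespace Vale.Agent.P284Z.A

open Vale.Agent.P284.H416

open Vale.Agent.P284.H894 Vale.Agent.P272.K Vale.Agent.P272.KOD

variable {n : ℕ} {Γ : Type} [Group Γ] {C : Coc n Γ}

theorem posDef_at (w : Wgt C) (a : C.I) {c : Cm n} (hc : c ∈ C.V a) :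
    (cHess (w.φ a) c).PosDef := by
  have h2 : ContDiffAt ℝ 2 (w.φ a) c := (w.smooth a _ (mem_Ω_of_V C hc)).of_le (by norm_cast)
  refine posDef_of_quad (cHess_isHermitian h2) fun ξ hξ => ?_
  have h3 := w.pos a c (ball_subset_closedBall hc) ξ
  have h4 : 0 < ∑ j, ‖ξ j‖ ^ 2 := by
    obtain ⟨j, hj⟩ := Function.ne_iff.1 hξ
    refine Finset.sum_pos' (fun i _ => by positivity) ⟨j, Finset.mem_univ j, ?_⟩
    have : 0 < ‖ξ j‖ := norm_pos_iff.2 hj
    positivity
  have h5 := mul_pos w.lam_pos h4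
  refine lt_of_lt_of_le h5 (h3.trans (le_of_eq ?_))
  unfold quad
  congr 1
  refine Finset.sum_congr rfl fun j _ => Finset.sum_congr rfl fun k _ => ?_
  rw [mul_assoc]

theorem ne_of_peak (W : Wt C) {v E : ℂ} {ε : ℝ} (hε : ε = 1 / (4 * (∑' γ, W.α γ)))
    (h : ‖1 - v * E‖ ≤ ε * W.α 1) : v ≠ 0 := by
  set S := ∑' γ, W.α γ with hS
  have hle : W.α 1 ≤ S := W.summable.le_tsum 1 fun γ' _ => W.nonneg γ'
  have hS1 : 1 ≤ S := W.one.trans hle
  have hε0 : 0 < ε := by rw [hε]; positivity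
  have hεS : ε * S = 1 / 4 := by
    rw [hε]; field_simp
  have e3 : ε * W.α 1 ≤ ε * S := mul_le_mul_of_nonneg_left hle hε0.le
  rintro rfl
  rw [zero_mul, sub_zero, norm_one] at h
  linarith

theorem exists_ne (P : PU C) (w : Wgt C) (a₀ : C.I) (c : Cm n) (hcV : c ∈ C.V a₀) :
    ∃ m : ℕ, 1 ≤ m ∧ ∃ (s : HS C m) (ρ : Γ → ℝ), s.Small ρ ∧ s.F 1 a₀ c ≠ 0 := by
  have hB1 : B1Stmt := b1Stmt
  have hB2 : B2Stmt := B2x.b2
  obtain ⟨α, K₁, hα1, hα2, hα3, hα4, hα5⟩ := Vale.Agent.P284.H283.b0 Γ C.N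
  let W : Wt C := ⟨α, K₁, hα1, hα2, hα3, hα4, hα5⟩
  have hcΩ : c ∈ C.Ω a₀ := mem_Ω_of_V C hcV
  obtain ⟨h, a, A, R, N⟩ := exists_NF (φ := w.φ a₀) (c := c)
    ((w.smooth a₀ _ hcΩ).of_le (by norm_cast)) (posDef_at w a₀ hcV)
  have ha := N.a_pos
  have hR := N.R_pos
  obtain ⟨r, hr, hrR, hrV⟩ : ∃ r : ℝ, 0 < r ∧ r < R ∧ closedBall c r ⊆ C.V a₀ := by
    obtain ⟨r', hr', h'⟩ : ∃ r' > 0, closedBall c r' ⊆ C.V a₀ :=
      nhds_basis_closedBall.mem_iff.1 (isOpen_ball.mem_nhds hcV)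
    exact ⟨min (R / 2) r', by positivity, lt_of_le_of_lt (min_le_left _ _) (by linarith),
      (closedBall_subset_closedBall (min_le_right _ _)).trans h'⟩
  obtain ⟨χ, hχ⟩ := exists_cut c hr
  obtain ⟨C₀, hC₀, hd⟩ := N.dbar_bound hr hrR hχ
  obtain ⟨m₀, hm₀1, happ⟩ := approx hB1 hB2 P w W
  set δ : ℝ := a * r ^ 2 / 4 with hδ
  have hδ0 : 0 < δ := by positivity
  obtain ⟨ρ, hρ, hρr, -, hval⟩ := N.value (δ := δ) (ρ₀ := r / 2) hδ0 (by positivity)
  set D₀ : ℝ := vol C * (W.K ^ 2 * ((n : ℝ) ^ 2 * C.M ^ 2)) * C₀ with hD₀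
  have hvol := vol_nonneg C
  have hD₀0 : 0 ≤ D₀ := by positivity
  set S := ∑' γ, W.α γ with hS
  have hS1 : 1 ≤ S := W.one.trans (W.summable.le_tsum 1 fun γ' _ => W.nonneg γ')
  set ε : ℝ := 1 / (4 * S) with hε
  have hε0 : 0 < ε := by positivity
  obtain ⟨m₁, hm₁⟩ := hval (16 * D₀) ε (by positivity) hε0
  set m : ℕ := max m₀ m₁ with hm
  have hKc : IsCompact (closedBall c r) := isCompact_closedBall c r
  set f : Cm n → ℂ := pk χ c h m 0 with hf
  have hfs : ContDiff ℝ ∞ f := pk_contDiff hχ N.diff m 0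
  have hf0 : ∀ z, z ∉ closedBall c r → f z = 0 := fun z hz => pk_eq_zero hχ h m 0 hz
  set σ : SS C m := src C m a₀ (closedBall c r) f hKc hrV hfs hf0 with hσ
  have hσF : ∀ γ b, σ.F γ b = srcF C m a₀ (closedBall c r) f γ b := fun γ b => rfl
  set A₀ : ℝ := D₀ * Real.exp (-δ * m) with hA₀
  have hA₀0 : 0 ≤ A₀ := by positivity
  have hdn : ∀ γ b, dnrm n m (w.φ b) (C.V b) (σ.F γ b) ≤ ENNReal.ofReal (A₀ * W.α γ ^ 2) := by
    intro γ b
    have h1 := src_dnrm W w hKc hrV hfs hf0 (B := C₀ * Real.exp (-δ * m)) (by positivity)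
      (fun z _ => hd m 0 z) γ b
    rw [hσF]
    refine h1.trans (ENNReal.ofReal_le_ofReal (le_of_eq ?_))
    rw [hA₀, hD₀]
    ring
  obtain ⟨s, hs⟩ := happ m (le_max_left _ _) σ A₀ hA₀0 hdn
  refine ⟨m, hm₀1.trans (le_max_left _ _), s, ?_⟩
  -- the sup bounds
  have hsmall : ∃ D : ℝ, 0 ≤ D ∧ ∀ γ b, ∀ z ∈ C.W b, ‖s.F γ b z‖ ≤ D * W.α γ := by
    have hcont : ContinuousOn (fun z => ‖f z‖ ^ 2 * Real.exp (-(m : ℝ) * w.φ a₀ z))
        (closedBall c r) := by
      have h1 : ContinuousOn (w.φ a₀) (closedBall c r) :=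
        (contOn_φ w a₀).mono (hrV.trans ball_subset_closedBall)
      exact (hfs.continuous.continuousOn.norm.pow 2).mul
        (Real.continuous_exp.comp_continuousOn (continuousOn_const.mul h1))
    obtain ⟨B, hB⟩ := hKc.exists_bound_of_continuousOn hcont
    have hB0' : 0 ≤ B := (norm_nonneg _).trans (hB c (mem_closedBall_self hr.le))
    obtain ⟨D, hD0, hD⟩ := sup_small w m
    set b₁ : ℝ := Real.sqrt (vol C * (W.K ^ 2 * B)) with hb₁
    set b₂ : ℝ := Real.sqrt (16 * A₀) with hb₂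
    have hK0 := W.one_le
    refine ⟨D * (b₁ + b₂), by positivity, fun γ b z hz => ?_⟩
    have hα0 := W.nonneg γ
    have h1 := hD σ s γ b (b₁ * W.α γ) (b₂ * W.α γ) (by positivity) (by positivity) ?_ ?_ z hz
    · refine h1.trans (le_of_eq ?_)
      ring
    · rw [hσF]
      have h2 := src_nrm (m := m) (f := f) W w hrV hB0'
        (fun z hz => (Real.le_norm_self _).trans (hB z hz)) γ b
      refine h2.trans (ENNReal.ofReal_le_ofReal (le_of_eq ?_))
      rw [mul_pow, hb₁, Real.sq_sqrt (by positivity)]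
    · refine (hs γ b).trans (ENNReal.ofReal_le_ofReal (le_of_eq ?_))
      rw [mul_pow, hb₂, Real.sq_sqrt (by positivity)]
      ring
  obtain ⟨D, hD0, hD⟩ := hsmall
  refine ⟨fun γ => C.M ^ m * (D * (W.K * W.α γ)), small_of_W W s hD0 hD, ?_⟩
  -- the peak
  set E : ℂ := Complex.exp (-(m : ℂ) * h c / 2) with hE
  suffices hsuf : ∀ γ : Γ, ‖({1} : Set Γ).indicator (fun _ => (1 : ℂ)) γ - s.F γ a₀ c * E‖ ≤
      ε * W.α γ by
    have e1 := hsuf 1
    rw [indicator_of_mem (mem_singleton (1 : Γ))] at e1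
    exact ne_of_peak W hε e1
  intro γ
  set q : ℂ := ({1} : Set Γ).indicator (fun _ => (1 : ℂ)) γ with hq
  have hbV : ball c ρ ⊆ C.V a₀ := fun z hz =>
    hrV (ball_subset_closedBall (ball_subset_ball (by linarith) hz))
  have hσq : ∀ z ∈ ball c ρ, σ.F γ a₀ z = q * frm h m z := by
    intro z hz
    have hzΩ : z ∈ C.Ω a₀ := mem_Ω_of_V C (hbV hz)
    rw [hσF, hq]
    by_cases hγ : γ = 1
    · rw [hγ, srcF_self hf0 hzΩ, indicator_of_mem (mem_singleton (1 : Γ)), one_mul, hf,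
        pk_eq hχ h m 0 (ball_subset_closedBall (ball_subset_ball hρr hz)), qf_zero, one_mul]
    · rw [srcF_self_ne hγ hzΩ, indicator_of_notMem (show γ ∉ ({1} : Set Γ) from hγ), zero_mul]
  have hn : nrm n m (w.φ a₀) (ball c ρ) (fun z => q * frm h m z - s.F γ a₀ z) ≤
      ENNReal.ofReal (16 * (A₀ * W.α γ ^ 2)) := by
    refine le_trans (le_of_eq ?_) ((lintegral_mono_set hbV).trans (hs γ a₀))
    unfold nrm
    refine setLIntegral_congr_fun measurableSet_ball fun z hz => ?_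
    simp only [hσq z hz]
  have hkey : ∀ t : ℝ, 0 < t → W.α γ ≤ t → ‖q - s.F γ a₀ c * E‖ ≤ ε * t := by
    intro t ht hαt
    have hα0 := W.nonneg γ
    have htc : (t : ℂ) ≠ 0 := by exact_mod_cast ht.ne'
    have h1 := hm₁ m (le_max_right _ _) (q / t) (fun z => s.F γ a₀ z / t)
      (by simp only [div_eq_mul_inv]; exact ((s.holo γ a₀).mono hbV).mul_const _) ?_
    · have h2 : q / t - s.F γ a₀ c / t * Complex.exp (-(m : ℂ) * h c / 2) =
          (q - s.F γ a₀ c * E) / t := by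
        rw [hE]; ring
      rw [h2, norm_div, Complex.norm_real, Real.norm_of_nonneg ht.le, div_le_iff₀ ht] at h1
      exact h1
    · have h3 : nrm n m (w.φ a₀) (ball c ρ) (fun z => q / t * frm h m z - s.F γ a₀ z / t) =
          ENNReal.ofReal ((t ^ 2)⁻¹) *
            nrm n m (w.φ a₀) (ball c ρ) (fun z => q * frm h m z - s.F γ a₀ z) := by
        unfold nrm
        rw [← lintegral_const_mul' _ _ ENNReal.ofReal_ne_top]
        refine lintegral_congr fun z => ?_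
        rw [← ENNReal.ofReal_mul (by positivity)]
        congr 1
        have h4 : q / t * frm h m z - s.F γ a₀ z / t = (q * frm h m z - s.F γ a₀ z) / t := by
          ring
        beta_reduce
        rw [h4, norm_div, Complex.norm_real, Real.norm_of_nonneg ht.le, div_pow]
        ring
      rw [h3]
      calc ENNReal.ofReal ((t ^ 2)⁻¹) *
            nrm n m (w.φ a₀) (ball c ρ) (fun z => q * frm h m z - s.F γ a₀ z)
          ≤ ENNReal.ofReal ((t ^ 2)⁻¹) * ENNReal.ofReal (16 * (A₀ * W.α γ ^ 2)) := by gcongr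
        _ = ENNReal.ofReal ((t ^ 2)⁻¹ * (16 * (A₀ * W.α γ ^ 2))) := by
            rw [← ENNReal.ofReal_mul (by positivity)]
        _ ≤ ENNReal.ofReal (16 * D₀ * Real.exp (-δ * m)) := by
            apply ENNReal.ofReal_le_ofReal
            rw [inv_mul_le_iff₀ (by positivity), hA₀]
            have h5 : W.α γ ^ 2 ≤ t ^ 2 := pow_le_pow_left₀ hα0 hαt 2
            have h6 : 0 ≤ 16 * (D₀ * Real.exp (-δ * m)) := by positivity
            calc 16 * (D₀ * Real.exp (-δ * m) * W.α γ ^ 2)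
                = (16 * (D₀ * Real.exp (-δ * m))) * W.α γ ^ 2 := by ring
              _ ≤ (16 * (D₀ * Real.exp (-δ * m))) * t ^ 2 := mul_le_mul_of_nonneg_left h5 h6
              _ = t ^ 2 * (16 * D₀ * Real.exp (-δ * m)) := by ring
  refine le_of_forall_pos_le_add fun η hη => ?_
  have h1 := hkey (W.α γ + η / ε) (by have := W.nonneg γ; positivity)
    (by have : 0 ≤ η / ε := by positivity
        linarith)
  have h2 : ε * (W.α γ + η / ε) = ε * W.α γ + η := by
    field_simp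
  rwa [h2] at h1

end Vale.Agent.P284Z.A

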