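import Vale.Agent.P284Z.Spec
import Vale.Agent.P284Z.A.Tr
import Vale.Agent.P284Z.A.PU
import Vale.Agent.P284Z.A.Peak

/-!
# P284Z, block A: a nowhere vanishing equivariant section with values in `ℓ²`
-/

open scoped ContDiff Topology
open Filter Set Metric

noncomputable section

namespace Vale.Agent.P284Z.A

open Vale.Agent.P272.K Vale.Agent.P284.H894

section l2
variable {ι : Type}

open Classical in
/-- the element of `ℓ²` with summable coordinates `f` -/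
def mk (f : ι → ℂ) : lp (fun _ : ι => ℂ) 2 := ∑' i, f i • lp.single 2 i (1 : ℂ)

open Classical in
theorem norm_term (c : ℂ) (i : ι) :
    ‖(c • lp.single 2 i (1 : ℂ) : lp (fun _ : ι => ℂ) 2)‖ = ‖c‖ := by
  rw [norm_smul, lp.norm_single (by norm_num), norm_one, mul_one]

theorem mk_apply {f : ι → ℂ} (hf : Summable fun i => ‖f i‖) (j : ι) : mk f j = f j := by
  classical
  have h1 : Summable fun i => (f i • lp.single 2 i (1 : ℂ) : lp (fun _ : ι => ℂ) 2) :=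
    Summable.of_norm (by simpa only [norm_term] using hf)
  have h2 := (lp.evalCLM ℂ (fun _ : ι => ℂ) 2 j).map_tsum h1
  have h3 : mk f j = lp.evalCLM ℂ (fun _ : ι => ℂ) 2 j (mk f) := rfl
  rw [h3, mk]
  convert h2 using 1
  rw [tsum_eq_single j]
  · show f j = (f j • lp.single 2 j (1 : ℂ) : lp (fun _ : ι => ℂ) 2) j
    rw [lp.coeFn_smul, Pi.smul_apply, lp.single_apply_self, smul_eq_mul, mul_one]
  · intro i hi
    show (f i • lp.single 2 i (1 : ℂ) : lp (fun _ : ι => ℂ) 2) j = 0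
    rw [lp.coeFn_smul, Pi.smul_apply, lp.single_apply_ne _ _ _ hi.symm, smul_zero]

theorem mk_an {n : ℕ} {f : ι → Cm n → ℂ} {u : ι → ℝ} (hu : Summable u) {z : Cm n}
    (h : ∀ᶠ w in 𝓝 z, ∀ i, DifferentiableAt ℂ (f i) w ∧ ‖f i w‖ ≤ u i) :
    AnalyticAt ℂ (fun w => mk fun i => f i w) z := by
  classical
  obtain ⟨R, hR, hb⟩ := Metric.eventually_nhds_iff_ball.1 h
  let F : ι → Cm n → lp (fun _ : ι => ℂ) 2 := fun i w => f i w • lp.single 2 i (1 : ℂ)
  have hd : ∀ i, ∀ w ∈ ball z R, DifferentiableAt ℂ (F i) w := fun i w hw =>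
    (hb w hw i).1.smul_const _
  have hn : ∀ i, ∀ w ∈ ball z R, ‖F i w‖ ≤ u i := fun i w hw => by
    rw [norm_term]; exact (hb w hw i).2
  have hsub : ∀ w ∈ ball z (R / 2), ball w (R / 2) ⊆ ball z R := fun w hw =>
    ball_subset_ball' (by rw [mem_ball] at hw; linarith)
  refine Vale.Agent.P281.MF.analyticAt_of_differentiableOn (U := ball z (R / 2)) isOpen_ball
    (fun x hx => ?_) (mem_ball_self (by linarith))
  have h1 := hasFDerivAt_tsum_of_isPreconnected (𝕜 := ℂ) (f := F)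
    (f' := fun i => fderiv ℂ (F i)) (u := fun i => u i / (R / 2)) (s := ball z (R / 2)) (x₀ := x)
    (hu.div_const _) isOpen_ball (convex_ball z _).isPreconnected
    (fun i y hy => (hd i y (ball_subset_ball (by linarith) hy)).hasFDerivAt)
    (fun i y hy => Vale.Agent.P281.MF.norm_fderiv_le_of_ball (by linarith)
      (fun w hw => (hd i w (hsub y hy hw)).differentiableWithinAt) fun w hw => hn i w (hsub y hy hw))
    hx (Summable.of_norm_bounded hu fun i => hn i x (ball_subset_ball (by linarith) hx)) hx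
  exact h1.differentiableAt.differentiableWithinAt

end l2

/-- the index set -/
def ix (Γ Λ : Type) [Group Γ] [Countable Γ] [Fintype Λ] : IX Γ where
  ι := Γ × Λ
  cnt := inferInstance
  act :=
    { smul := fun γ p => (γ * p.1, p.2)
      one_smul := fun p => Prod.ext (one_mul p.1) rfl
      mul_smul := fun γ g p => Prod.ext (mul_assoc γ g p.1) rfl }
  pos p := p.1
  pos_smul _ _ := rfl

theorem summable_prod {Γ Λ : Type} [Fintype Λ] {u : Λ → Γ → ℝ} (h0 : ∀ l γ, 0 ≤ u l γ)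
    (hu : ∀ l, Summable (u l)) : Summable fun p : Γ × Λ => u p.2 p.1 := by
  have h : Summable fun p : Λ × Γ => u p.1 p.2 :=
    (summable_prod_of_nonneg fun p => h0 p.1 p.2).2 ⟨hu, Summable.of_finite⟩
  exact (Equiv.prodComm Γ Λ).summable_iff.2 h

variable {n : ℕ} {Γ E : Type} [Group Γ] [TopologicalSpace E] [MulAction Γ E] {C : Cov n Γ E}
  [T2Space E] [ConnectedSpace E] {P : Pol C} {M : ℕ}

theorem fam_loc {Λ : Type} [Fintype Λ] (t : Λ → GS (toCoc P) M) (γ : Γ) {a : C.I} {z : Cm n}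
    (hz : z ∈ C.B 4 a) : ∃ u : Γ × Λ → ℝ, Summable u ∧ ∀ᶠ w in 𝓝 z, ∀ p : Γ × Λ,
      DifferentiableAt ℂ ((t p.2).F (p.1⁻¹ * γ) a) w ∧ ‖(t p.2).F (p.1⁻¹ * γ) a w‖ ≤ u p := by
  choose u hu h using fun l => (t l).loc a z hz
  have h0 : ∀ l g, 0 ≤ u l g := fun l g => (norm_nonneg _).trans ((h l).self_of_nhds g).2
  refine ⟨fun p => u p.2 (p.1⁻¹ * γ), summable_prod (u := fun l g => u l (g⁻¹ * γ))
    (fun l g => h0 l _) fun l => ?_, ?_⟩
  · exact ((Equiv.inv Γ).trans (Equiv.mulRight γ)).summable_iff.2 (hu l)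
  · filter_upwards [eventually_all.2 h] with w hw p using hw p.2 _

theorem fam_sum {Λ : Type} [Fintype Λ] (t : Λ → GS (toCoc P) M) (γ : Γ) {a : C.I} {z : Cm n}
    (hz : z ∈ C.B 4 a) : Summable fun p : Γ × Λ => ‖(t p.2).F (p.1⁻¹ * γ) a z‖ := by
  obtain ⟨u, hu, h⟩ := fam_loc t γ hz
  exact Summable.of_nonneg_of_le (fun _ => norm_nonneg _) (fun p => (h.self_of_nhds p).2) hu

theorem quot_eq (t : GS (toCoc P) M) (g : Γ) {γ γ' : Γ} {a b : C.I} {z w : Cm n}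
    (hz : z ∈ C.B 4 a) (hw : w ∈ C.B 4 b) (h : C.pt γ a z = C.pt γ' b w) :
    (P.s a z ^ M)⁻¹ * t.F (g * γ) a z = (P.s b w ^ M)⁻¹ * t.F (g * γ') b w := by
  obtain ⟨h1, h2⟩ := ov_of_eq hz hw h
  have hO : z ∈ O C a b := ⟨_, h1⟩
  have h3 : T C a b z = w := (T_eq h1).trans h2
  have h4 : t.F (g * γ) a z = G P a b z ^ M * t.F (g * γ * (kp C a b z)⁻¹) b (T C a b z) :=
    t.change (g * γ) a b z hO
  have h5 : g * γ * (γ'⁻¹ * γ)⁻¹ = g * γ' := by group
  have h6 : G P a b z ^ M ≠ 0 := pow_ne_zero _ (G_ne P hO)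
  rw [h4, s_eq P hO, h3, kp_eq h1, h5, mul_pow, mul_inv, mul_comm (G P a b z ^ M)⁻¹, mul_assoc,
    inv_mul_cancel_left₀ h6]

end Vale.Agent.P284Z.A

namespace Vale.Agent.P284Z

open Vale.Agent.P272.K Vale.Agent.P284.H894 A

/-- **A** -/
theorem stA : StA := by
  intro n Γ E _ _ _ _ _ _ C P
  obtain ⟨wt⟩ := exists_wgt P
  obtain ⟨Λ, _, M, t, ht⟩ := exists_family (C := toCoc P) fun a z hz =>
    exists_ne (toPU _) wt a z hz
  choose γ₀ a₀ z₀ hz₀ hy using C.cover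
  have hB : ∀ y, z₀ y ∈ C.B 4 (a₀ y) := fun y =>
    ball_subset_ball (by linarith [C.r_pos (a₀ y)]) (hz₀ y)
  let f : E → Γ × Λ → ℂ := fun y p =>
    (P.s (a₀ y) (z₀ y) ^ M)⁻¹ * (t p.2).F (p.1⁻¹ * γ₀ y) (a₀ y) (z₀ y)
  have hfs : ∀ y, Summable fun p => ‖f y p‖ := fun y => by
    simp only [f, norm_mul]
    exact (fam_sum t _ (hB y)).mul_left _
  have hf : ∀ γ a, ∀ z ∈ C.B 4 a, ∀ p : Γ × Λ, f (C.pt γ a z) p =
      (P.s a z ^ M)⁻¹ * (t p.2).F (p.1⁻¹ * γ) a z := fun γ a z hz p =>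
    quot_eq (t p.2) _ (hB _) hz (hy _).symm
  have hL : ∀ a, ∀ z ∈ C.B 4 a, ∀ q : Γ × Λ,
      mk (fun p : Γ × Λ => (t p.2).F (p.1⁻¹ * 1) a z) q = (t q.2).F (q.1⁻¹ * 1) a z :=
    fun a z hz q => mk_apply (fam_sum t 1 hz) q
  refine ⟨ix Γ Λ, M,
    { F := fun y => mk (f y)
      L := fun a z => mk fun p : Γ × Λ => (t p.2).F (p.1⁻¹ * 1) a z
      an := fun a z hz => ?_
      eq := fun a z hz hs => ?_
      eqv := fun γ y i _ => ?_ }, fun a z hz h0 => ?_⟩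
  · obtain ⟨u, hu, h⟩ := fam_loc t 1 hz
    exact mk_an hu h
  · refine lp.ext (funext fun q : Γ × Λ => ?_)
    refine (hL a z hz q).trans ?_
    show _ = P.s a z ^ M * mk (f (C.pt 1 a z)) q
    rw [mk_apply (hfs _), hf 1 a z hz, mul_inv_cancel_left₀ (pow_ne_zero _ hs)]
  · refine (mk_apply (hfs _) _).trans (Eq.trans ?_ (mk_apply (hfs _) _).symm)
    have h1 : γ • y = C.pt (γ * γ₀ y) (a₀ y) (z₀ y) := by
      rw [pt_mul]
      exact congrArg (γ • ·) (hy y)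
    rw [h1]
    refine (hf _ _ _ (hB y) _).trans ?_
    show _ * (t i.2).F ((γ * i.1)⁻¹ * (γ * γ₀ y)) _ _ = _ * (t i.2).F (i.1⁻¹ * γ₀ y) _ _
    rw [mul_inv_rev, mul_assoc, inv_mul_cancel_left]
  · obtain ⟨l, γ, h1⟩ := ht a z hz
    have h2 := hL a z hz (γ⁻¹, l)
    have h3 : mk (fun p : Γ × Λ => (t p.2).F (p.1⁻¹ * 1) a z) = 0 := h0
    rw [h3, inv_inv, mul_one] at h2
    exact h1 h2.symm

end Vale.Agent.P284Z
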